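import Vale.Agent.P180.R2.H589.O8.Od1

/-!
P180: orthogonal groups in odd characteristic, all dimensions at least seven: automorphisms which
stabilise the class of the point radicals.
-/

set_option linter.all false

namespace Vale.Agent.P180.R2.H589.O8

open Subgroup Module
open LinearMap (BilinForm)
open Vale.Agent.P180.R2.H589.Sch
open Vale.Agent.P180.R2.H589.Or (Sm hypo hypo_apply hypo_sm splitE splitE_iso splitE_apply BW_sm
  pr_mem Cl qo qo_apply qo_mem qo_mul qo_zero qo_inv qo_pel qo_inj)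
open Vale.Agent.P180.R2.H589.Sp (SpG mem_SpG WW BW BW_apply lv lv_apply lv_mul lv_one lv_inv oo
  oo_ne finite_gl SSim o')
open Vale.Agent.P180.R2.H589.Oa

section Main

variable {K W : Type*} [Field K] [Finite K] [AddCommGroup W] [Module K W] [Module.Finite K W]
  {p : ℕ} [hp : Fact p.Prime] [CharP K p] {B : BilinForm K W} (hB : Sm B)
  {X : Subgroup ((K × W × K) ≃ₗ[K] (K × W × K))} (c : Ctx p (hypo B) X)
  {T : Type*} [Group T] {π : X →* T} (h : PiC π)

/-- the point radicals are mapped to point radicals -/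
def Pt (B : BilinForm K W) {X : Subgroup ((K × W × K) ≃ₗ[K] (K × W × K))} (π : X →* T)
    (β : MulAut T) : Prop :=
  ∀ v : K × W × K, v ≠ 0 → hypo B v v = 0 →
    ∃ w : K × W × K, w ≠ 0 ∧ hypo B w w = 0 ∧ Im (hypo B) π β v w

include hp c

theorem Pt.conj {β : MulAut T} (hβ : Pt B π β) (g : X) : Pt B π (MulAut.conj (π g) * β) := by
  intro v hv0 hv
  obtain ⟨w, hw0, hw, hi⟩ := hβ v hv0 hv
  refine ⟨(g : (K × W × K) ≃ₗ[K] (K × W × K)) w, fun h0 => hw0
    (LinearEquiv.map_eq_zero_iff _ |>.mp h0), by rw [iso c, hw], fun x => ?_⟩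
  rw [← hi x, ← RT_conj_iff' c g hw, MulAut.mul_apply, MulAut.conj_apply]
  have h3 : (π g)⁻¹ * (π g * β x * (π g)⁻¹) * π g = β x := by group
  rw [h3]

include h hB

/-- the stabiliser -/
theorem Pt_of_St (hd : 3 ≤ finrank K W) {β : MulAut T}
    (hβ : β ∈ St (RT (hypo B) π (oo K W))) : Pt B π β := by
  intro v hv0 hv
  obtain ⟨t, ht⟩ := hβ
  obtain ⟨k, rfl⟩ := h.surj t
  have h1 : ∀ x, β x ∈ RT (hypo B) π ((k : (K × W × K) ≃ₗ[K] (K × W × K)) (oo K W)) ↔
      x ∈ RT (hypo B) π (oo K W) := by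
    intro x
    rw [← RT_conj_iff' c k (oo_sing B)]
    have h3 : β x ∈ (RT (hypo B) π (oo K W)).map β.toMonoidHom ↔ x ∈ RT (hypo B) π (oo K W) := by
      rw [mem_map_aut, MulEquiv.symm_apply_apply]
    have h4 : β x ∈ (RT (hypo B) π (oo K W)).map (MulAut.conj (π k)).toMonoidHom ↔
        (π k)⁻¹ * β x * π k ∈ RT (hypo B) π (oo K W) := by
      rw [mem_map_aut]
      rfl
    rw [← h3, ht, h4]
  obtain ⟨g, hg⟩ := RT_conj_oo hB c h hd hv0 hv
  obtain ⟨g', hg'⟩ := h.surj (β (π g))
  have hko : hypo B ((k : (K × W × K) ≃ₗ[K] (K × W × K)) (oo K W))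
      ((k : (K × W × K) ≃ₗ[K] (K × W × K)) (oo K W)) = 0 := by rw [iso c, oo_sing]
  refine ⟨(g' : (K × W × K) ≃ₗ[K] (K × W × K)) ((k : (K × W × K) ≃ₗ[K] (K × W × K)) (oo K W)),
    fun h0 => oo_ne (LinearEquiv.map_eq_zero_iff _ |>.mp (LinearEquiv.map_eq_zero_iff _ |>.mp h0)),
    by rw [iso c, hko], fun x => ?_⟩
  rw [← hg x, ← h1, ← RT_conj_iff' c g' hko, hg', map_mul, map_mul, map_inv]

/-- **Three classes.** -/
theorem three_classes_hyp (hd : 5 ≤ finrank K W) :
    (∀ a : MulAut T, a ^ 6 ∈ St (RT (hypo B) π (oo K W))) ∧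
      derivedSeries (MulAut T) 2 ≤ St (RT (hypo B) π (oo K W)) := by
  haveI : Finite W := Module.finite_of_finite K
  have hfin : finrank K (K × W × K) = finrank K W + 2 := by
    rw [Module.finrank_prod, Module.finrank_prod, Module.finrank_self]
    omega
  have sg := sg_of_ctx c
  refine three_classes _ (fun Q => ∃ v : K × W × K, v ≠ 0 ∧ hypo B v v = 0 ∧ Q = RT (hypo B) π v)
    (fun Q => ∃ U : Submodule K (K × W × K), Mx (qf (hypo B)) (hypo B) U ∧
      Q = (VU (hypo B) X U).map π) (fun β => ?_) ?_ ?_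
  · exact RT_or_VU c h (fun u hu0 hu t ht => cent_RT hB c h (by omega) hu0 hu ht)
      ((Phi_RT hB c h (by omega) oo_ne (oo_sing B)).map β)
  · rintro Q ⟨v, hv0, hv, rfl⟩
    obtain ⟨g, k, hk0, hk⟩ := trans c (by omega) oo_ne hv0 (oo_sing B) hv
    refine Cj_RT c g (oo_sing B) ?_
    rw [hk, RT_smul c hk0 hv]
  · rintro Q₀ Q Q' ⟨U₀, hU₀, rfl⟩ ⟨U, hU, rfl⟩ ⟨U', hU', rfl⟩
    rcases two_orbits sg hU₀ hU hU' with ⟨g, hg, h1⟩ | ⟨g, hg, h1⟩ | ⟨g, hg, h1⟩
    · exact Or.inl (Cj_VU c hg h1).symm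
    · exact Or.inr (Or.inl (Cj_VU c hg h1).symm)
    · exact Or.inr (Or.inr (Cj_VU c hg h1))

/-- Normalisation. -/
theorem exists_norm' (hd : 5 ≤ finrank K W) {α : MulAut T} (hPt : Pt B π α) : ∃ t : T,
    Im (hypo B) π (MulAut.conj t * α) (oo K W) (oo K W) ∧
    Im (hypo B) π (MulAut.conj t * α) (o' K W) (o' K W) := by
  haveI : Finite W := Module.finite_of_finite K
  have hfin : finrank K (K × W × K) = finrank K W + 2 := by
    rw [Module.finrank_prod, Module.finrank_prod, Module.finrank_self]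
    omega
  obtain ⟨w₁, hw₁0, hw₁s, hw₁⟩ := hPt _ oo_ne (oo_sing B)
  obtain ⟨g, k, hk0, hk⟩ := trans c (by omega) oo_ne hw₁0 (oo_sing B) hw₁s
  have h1 : Im (hypo B) π (MulAut.conj (π g)⁻¹ * α) (oo K W) (oo K W) := by
    intro x
    rw [MulAut.mul_apply, MulAut.conj_apply, inv_inv, RT_conj_iff' c g (oo_sing B), hk,
      RT_smul c hk0 hw₁s, hw₁]
  obtain ⟨β, hβ⟩ : ∃ β, β = MulAut.conj (π g)⁻¹ * α := ⟨_, rfl⟩
  rw [← hβ] at h1
  have hPβ : Pt B π β := by
    rw [hβ, ← map_inv]
    exact hPt.conj c g⁻¹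
  obtain ⟨w, hw0, hws, hw⟩ := hPβ _ (o'_ne (K := K) (W := W)) (o'_sing B)
  -- `w` is not orthogonal to the first vector
  have hw2 : w.2.2 ≠ 0 := by
    intro h0
    have h3 := (orth_img c h (by omega) h1 hw oo_ne o'_ne oo_ne hw0 (oo_sing B) (o'_sing B)
      (oo_sing B) hws oo_o'_ind).mp (by rw [oo_orth, h0])
    rw [oo_orth] at h3
    exact one_ne_zero h3
  obtain ⟨a, ha⟩ : ∃ a : X, a = qX B X (w.2.2⁻¹ • w.2.1) := ⟨_, rfl⟩
  have ha1 : (a : (K × W × K) ≃ₗ[K] (K × W × K)) (o' K W) = w.2.2⁻¹ • w := by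
    rw [ha, qX_o' c]
    refine Prod.ext ?_ (Prod.ext rfl ?_)
    · change -(2⁻¹ * B (w.2.2⁻¹ • w.2.1) (w.2.2⁻¹ • w.2.1)) = w.2.2⁻¹ * w.1
      rw [map_smul, map_smul, LinearMap.smul_apply, smul_eq_mul, smul_eq_mul]
      rw [hypo_apply] at hws
      have h2 := c.two
      field_simp
      linear_combination -hws
    · exact (inv_mul_cancel₀ hw2).symm
  have ha2 : (a : (K × W × K) ≃ₗ[K] (K × W × K)) (oo K W) = oo K W := by rw [ha, qX_oo c]
  have ha3 : RT (hypo B) π w = RT (hypo B) π ((a : (K × W × K) ≃ₗ[K] (K × W × K)) (o' K W)) := by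
    rw [ha1, RT_smul c (inv_ne_zero hw2) hws]
  have key : ∀ x, (MulAut.conj ((π a)⁻¹ * (π g)⁻¹) * α) x = (π a)⁻¹ * β x * π a := by
    intro x
    rw [map_mul, mul_assoc, ← hβ, MulAut.mul_apply, MulAut.conj_apply, inv_inv]
  refine ⟨(π a)⁻¹ * (π g)⁻¹, fun x => ?_, fun x => ?_⟩
  · rw [key, RT_conj_iff' c a (oo_sing B), ha2, h1]
  · rw [key, RT_conj_iff' c a (o'_sing B), ← ha3, hw]

/-- **Automorphisms which stabilise the first and the last radical** act semilinearly on the
first radical. -/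
theorem exists_maps' (hK : 3 < Nat.card K) (hd : 5 ≤ finrank K W)
    {β : MulAut T} (hPt : Pt B π β) (h1 : Im (hypo B) π β (oo K W) (oo K W))
    (h1' : Im (hypo B) π β (o' K W) (o' K W)) :
    ∃ (s : W ≃+ W) (σ : K ≃+* K) (κ : K), κ ≠ 0 ∧
      (∀ (a : K) y, s (a • y) = σ a • s y) ∧
      (∀ y y', B (s y) (s y') = κ * σ (B y y')) ∧
      (∀ y, β (π (qX B X y)) = π (qX B X (s y))) ∧
      ∀ y, y ≠ 0 → B y y = 0 → Im (hypo B) π β ((0 : K), y, (0 : K)) ((0 : K), s y, (0 : K)) := by
  haveI : Finite W := Module.finite_of_finite K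
  have hfin : finrank K (K × W × K) = finrank K W + 2 := by
    rw [Module.finrank_prod, Module.finrank_prod, Module.finrank_self]
    omega
  have h2 := c.two
  obtain ⟨e, he0, he⟩ := exists_sing hB h2 (by omega : 3 ≤ finrank K W)
  obtain ⟨f, hef, hf⟩ := hB.exists_pair h2 he0 he
  have hR : ∀ y : W, ∃ z : W, β (π (qX B X y)) = π (qX B X z) := fun y =>
    (mem_RT_oo c).mp ((h1 _).mpr ((mem_RT_oo c).mpr ⟨y, rfl⟩))
  choose s hs using hR
  have hsadd : ∀ y y', s (y + y') = s y + s y' := by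
    intro y y'
    apply pq_inj c h
    rw [← hs, ← qX_mul hB c, ← qX_mul hB c, map_mul, map_mul, map_mul, hs, hs]
  have hs0 : s 0 = 0 := by
    have := hsadd 0 0
    rw [add_zero] at this
    exact add_eq_left.mp this.symm
  have hsker : ∀ y, s y = 0 → y = 0 := by
    intro y hy
    apply pq_inj c h
    apply β.injective
    rw [hs, hs, hy, hs0]
  let s' : W →+ W := { toFun := s, map_zero' := hs0, map_add' := hsadd }
  have hsinj : Function.Injective s' := (injective_iff_map_eq_zero s').mpr hsker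
  have hsbij : Function.Bijective s' := Finite.injective_iff_bijective.mp hsinj
  let S : W ≃+ W := AddEquiv.ofBijective s' hsbij
  have hS : ∀ y, S y = s y := fun y => rfl
  -- the singular vectors
  have mids : ∀ y : W, B y y = 0 → hypo B ((0 : K), y, (0 : K)) ((0 : K), y, (0 : K)) = 0 := by
    intro y hy
    rw [hypo_apply]
    change (0 : K) * 0 + 0 * 0 + B y y = 0
    rw [hy]
    ring
  have mid0 : ∀ y : W, y ≠ 0 → ((0 : K), y, (0 : K)) ≠ 0 := fun y hy h0 =>
    hy (congrArg (fun u : K × W × K => u.2.1) h0)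
  have midi : ∀ y : W, y ≠ 0 → ∀ k : K, ((0 : K), y, (0 : K)) ≠ k • oo K W := by
    intro y hy k h0
    have h3 := congrArg (fun u : K × W × K => u.2.1) h0
    change y = k • (0 : W) at h3
    rw [smul_zero] at h3
    exact hy h3
  have midi' : ∀ y : W, y ≠ 0 → ∀ k : K, ((0 : K), y, (0 : K)) ≠ k • o' K W := by
    intro y hy k h0
    have h3 := congrArg (fun u : K × W × K => u.2.1) h0
    change y = k • (0 : W) at h3
    rw [smul_zero] at h3
    exact hy h3
  have stepC : ∀ y, y ≠ 0 → B y y = 0 → B (s y) (s y) = 0 ∧ (∀ a : K, ∃ k : K, s (a • y) = k • s y) ∧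
      Im (hypo B) π β ((0 : K), y, (0 : K)) ((0 : K), s y, (0 : K)) := by
    intro y hy0 hy
    obtain ⟨w, hw0, hws, hw⟩ := hPt _ (mid0 y hy0) (mids y hy)
    have e1 : w.2.2 = 0 := by
      have h3 := (orth_img c h (by omega) h1 hw oo_ne (mid0 y hy0) oo_ne hw0 (oo_sing B)
        (mids y hy) (oo_sing B) hws (midi y hy0)).mpr (oo_orth B _)
      rwa [oo_orth] at h3
    have e2 : w.1 = 0 := by
      have h3 := (orth_img c h (by omega) h1' hw o'_ne (mid0 y hy0) o'_ne hw0 (o'_sing B)
        (mids y hy) (o'_sing B) hws (midi' y hy0)).mpr (o'_orth B _)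
      rwa [o'_orth] at h3
    have e3 : w = ((0 : K), w.2.1, (0 : K)) := Prod.ext e2 (Prod.ext rfl e1)
    have e4 : w.2.1 ≠ 0 := by
      intro h0
      apply hw0
      rw [e3, h0]
      rfl
    have e5 : ∀ a : K, ∃ b : K, s (a • y) = b • w.2.1 := by
      intro a
      have f1 : π (qX B X (a • y)) ∈ RT (hypo B) π ((0 : K), y, (0 : K)) := by
        have g1 : hypo B (oo K W) ((0 : K), y, (0 : K)) = 0 := oo_mid B 0 y
        have g2 : hypo B (a • oo K W) ((0 : K), y, (0 : K)) = 0 := by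
          rw [map_smul, LinearMap.smul_apply, g1, smul_zero]
        have g3 : qX B X (a • y) = rX (hypo B) X ((0 : K), y, (0 : K)) (-(a • oo K W)) := by
          rw [← rX_swap c (smul_sing (oo_sing B) a) (mids y hy) g2,
            rX_smul c (oo_sing B) g1, qX]
          congr 1
          refine Prod.ext (mul_zero a).symm (Prod.ext rfl (mul_zero a).symm)
        rw [g3]
        refine rX_mem_RT ?_
        rw [map_neg, c.sm.symm (a • oo K W), g2, neg_zero]
      have f2 := (hw _).mpr f1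
      rw [hs] at f2
      obtain ⟨z, hz, hyz⟩ := (mem_RT c hws).mp f2
      have f3 := pel_inj h (qX_pel c _) (rX_pel c hws hz) hyz
      obtain ⟨i, j, hij, -, -⟩ := rX_eq c oo_ne hw0 (oo_sing B) hws (oo_mid B 0 _) hz (by
        rw [e3]
        exact midi _ e4) f3
      refine ⟨j, ?_⟩
      have f4 := congrArg (fun u : K × W × K => u.2.1) hij
      change s (a • y) = i • (0 : W) + j • w.2.1 at f4
      rwa [smul_zero, zero_add] at f4
    obtain ⟨b, hb⟩ := e5 1
    rw [one_smul] at hb
    have hb0 : b ≠ 0 := by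
      rintro rfl
      rw [zero_smul] at hb
      exact hy0 (hsker y hb)
    have e6 : w = b⁻¹ • ((0 : K), s y, (0 : K)) := by
      rw [hb]
      refine e3.trans (Prod.ext (mul_zero _).symm (Prod.ext ?_ (mul_zero _).symm))
      change w.2.1 = b⁻¹ • b • w.2.1
      rw [smul_smul, inv_mul_cancel₀ hb0, one_smul]
    have e7 : B w.2.1 w.2.1 = 0 := by
      rw [e3, hypo_apply] at hws
      change (0 : K) * 0 + 0 * 0 + B w.2.1 w.2.1 = 0 at hws
      rwa [mul_zero, zero_add, zero_add] at hws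
    have e8 : B (s y) (s y) = 0 := by rw [hb]; exact smul_sing e7 b
    refine ⟨e8, fun a => ?_, fun x => ?_⟩
    · obtain ⟨i, hi⟩ := e5 a
      refine ⟨i * b⁻¹, ?_⟩
      rw [hi, hb, smul_smul, inv_mul_cancel_right₀ hb0]
    · rw [← hw x, e6, RT_smul c (inv_ne_zero hb0) (mids _ e8)]
  -- the field automorphism
  have hτ : ∀ (y : W) (a : K), ∃ k : K, y ≠ 0 → B y y = 0 → s (a • y) = k • s y := by
    intro y a
    by_cases hy : y ≠ 0 ∧ B y y = 0
    · obtain ⟨k, hk⟩ := (stepC y hy.1 hy.2).2.1 a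
      exact ⟨k, fun _ _ => hk⟩
    · exact ⟨0, fun h3 h4 => absurd ⟨h3, h4⟩ hy⟩
  choose τ hτ using hτ
  have hconst : ∀ {y z : W}, y ≠ 0 → z ≠ 0 → B y y = 0 → B z z = 0 → τ y = τ z := by
    intro y z hy0 hz0 hy hz
    refine sing_const hB h2 hd τ ?_ hy0 hz0 hy hz
    intro y z hy0 hz0 hy hz hyz hk
    have e0 : y + z ≠ 0 := by
      intro h5
      apply hk (-1)
      rw [neg_one_smul]
      exact eq_neg_of_add_eq_zero_right h5
    have e1 : B (y + z) (y + z) = 0 := by
      simp only [map_add, LinearMap.add_apply, hy, hz, hyz, hB.symm y z, add_zero]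
    have hkk : ∀ k : K, s z ≠ k • s y := by
      intro k hk'
      obtain ⟨-, -, h3⟩ := stepC y hy0 hy
      obtain ⟨-, -, h4⟩ := stepC z hz0 hz
      refine ind_img c h (by omega) h3 h4 (mid0 y hy0) (mid0 z hz0)
        (mid0 _ fun h0 => hz0 (hsker z h0)) (mids y hy) (mids z hz) (mids _ (stepC y hy0 hy).1)
        (fun k h0 => ?_) k ?_
      · have h5 := congrArg (fun u : K × W × K => u.2.1) h0
        exact hk k h5
      · rw [hk']
        refine Prod.ext (mul_zero _).symm (Prod.ext rfl (mul_zero _).symm)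
    funext a
    have e2 := hτ (y + z) a e0 e1
    rw [smul_add, hsadd, hsadd, hτ y a hy0 hy, hτ z a hz0 hz] at e2
    have e3 : (τ y a - τ (y + z) a) • s y = (τ (y + z) a - τ z a) • s z := by
      have e4 : τ y a • s y + τ z a • s z - τ (y + z) a • (s y + s z) = 0 := by rw [e2, sub_self]
      have e5 : (τ y a - τ (y + z) a) • s y - (τ (y + z) a - τ z a) • s z =
        τ y a • s y + τ z a • s z - τ (y + z) a • (s y + s z) := by module
      rw [e4] at e5
      exact sub_eq_zero.mp e5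
    have e6 : τ (y + z) a - τ z a = 0 := by
      by_contra e7
      apply hkk ((τ (y + z) a - τ z a)⁻¹ * (τ y a - τ (y + z) a))
      rw [mul_smul, e3, smul_smul, inv_mul_cancel₀ e7, one_smul]
    rw [e6, zero_smul] at e3
    have e7 := (smul_eq_zero.mp e3).resolve_right fun h0 => hy0 (hsker y h0)
    rw [sub_eq_zero.mp e7, sub_eq_zero.mp e6]
  have hsemi : ∀ (a : K) (w : W), s (a • w) = τ e a • s w := by
    intro a w
    let H : AddSubgroup W :=
      { carrier := {w | s (a • w) = τ e a • s w}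
        zero_mem' := by
          change s (a • (0 : W)) = τ e a • s 0
          rw [smul_zero, hs0, smul_zero]
        add_mem' := by
          intro x y hx hy
          change s (a • (x + y)) = τ e a • s (x + y)
          rw [smul_add, hsadd, hsadd, hx, hy, smul_add]
        neg_mem' := by
          intro x hx
          change S (a • (-x)) = τ e a • S (-x)
          rw [smul_neg, map_neg, map_neg, smul_neg, hS, hS]
          exact congrArg Neg.neg hx }
    refine sum_sing hB h2 he hf hef H (fun v hv => ?_) w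
    change s (a • v) = τ e a • s v
    by_cases hv0 : v = 0
    · rw [hv0, smul_zero, hs0, smul_zero]
    · rw [hτ v a hv0 hv, hconst hv0 he0 hv he]
  have hse0 : s e ≠ 0 := fun h0 => he0 (hsker e h0)
  let σ' : K →+* K :=
    { toFun := fun a => τ e a
      map_one' := by
        have h3 := hsemi 1 e
        rw [one_smul] at h3
        have h4 : (τ e 1 - 1) • s e = 0 := by rw [sub_smul, one_smul, ← h3, sub_self]
        exact sub_eq_zero.mp ((smul_eq_zero.mp h4).resolve_right hse0)
      map_mul' := by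
        intro a b
        have h3 := hsemi (a * b) e
        rw [mul_smul, hsemi, hsemi, smul_smul] at h3
        exact (smul_left_injective K hse0 h3).symm
      map_zero' := by
        have h3 := hsemi 0 e
        rw [zero_smul, hs0] at h3
        exact (smul_eq_zero.mp h3.symm).resolve_right hse0
      map_add' := by
        intro a b
        have h3 := hsemi (a + b) e
        rw [add_smul, hsadd, hsemi, hsemi, ← add_smul] at h3
        exact (smul_left_injective K hse0 h3).symm }
  have hσinj : Function.Injective σ' := σ'.injective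
  let σ : K ≃+* K := RingEquiv.ofBijective σ' (Finite.injective_iff_bijective.mp hσinj)
  have hσ : ∀ a, σ a = τ e a := fun a => rfl
  have hsl : ∀ (a : K) (w : W), s (a • w) = σ a • s w := hsemi
  -- the form
  let D : BilinForm K W := LinearMap.mk₂ K (fun x y => σ.symm (B (s x) (s y)))
    (fun x x' y => by rw [hsadd, map_add, LinearMap.add_apply, map_add])
    (fun a x y => by
      rw [hsl, map_smul, LinearMap.smul_apply, smul_eq_mul, map_mul, σ.symm_apply_apply,
        smul_eq_mul])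
    (fun x y y' => by rw [hsadd, map_add, map_add])
    (fun a x y => by
      rw [hsl, map_smul, smul_eq_mul, map_mul, σ.symm_apply_apply, smul_eq_mul])
  have hD : ∀ x y, D x y = σ.symm (B (s x) (s y)) := fun x y => rfl
  have hform := form_prop (D := D) h2 (exists_mu hK) hB
    (fun x y => by rw [hD, hD, hB.symm]) (fun x hx => by
      by_cases hx0 : x = 0
      · rw [hx0, hD, hs0, map_zero, map_zero]
      · rw [hD, (stepC x hx0 hx).1, map_zero]) he hf hef
  have hform' : ∀ x y, B (s x) (s y) = σ (D e f) * σ (B x y) := by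
    intro x y
    rw [← map_mul, ← hform, hD, σ.apply_symm_apply]
  refine ⟨S, σ, σ (D e f), ?_, hsl, hform', hs, fun y hy0 hy => (stepC y hy0 hy).2.2⟩
  intro h0
  apply hse0
  apply hB.nd
  intro y
  obtain ⟨y, rfl⟩ := hsbij.2 y
  change B (s e) (s y) = 0
  rw [hform', h0, zero_mul]

/-- **Every automorphism** is induced by a semilinear similitude. -/
theorem exists_ssim_hyp' (hK : 3 < Nat.card K) (hd : 5 ≤ finrank K W)
    {α : MulAut T} (hPt : Pt B π α) : ∃ (g : (K × W × K) ≃+ (K × W × K)) (σ : K ≃+* K) (κ : K),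
    SSim (hypo B) g σ κ ∧ IndZ π α g := by
  haveI : Finite W := Module.finite_of_finite K
  have hfin : finrank K (K × W × K) = finrank K W + 2 := by
    rw [Module.finrank_prod, Module.finrank_prod, Module.finrank_self]
    omega
  have hV := hypo_sm hB
  have h2 := c.two
  obtain ⟨t, ht1, ht2⟩ := exists_norm' hB c h hd hPt
  obtain ⟨β, hβ⟩ : ∃ β, β = MulAut.conj t * α := ⟨_, rfl⟩
  rw [← hβ] at ht1 ht2
  have hPβ : Pt B π β := by
    obtain ⟨g, rfl⟩ := h.surj t
    rw [hβ]
    exact hPt.conj c g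
  obtain ⟨s, σ, κ, hκ, hs, hform, hmap, hmid⟩ := exists_maps' hB c h hK hd hPβ ht1 ht2
  -- the semilinear map
  let g : (K × W × K) ≃+ (K × W × K) :=
    { toFun := fun u => (κ * σ u.1, s u.2.1, σ u.2.2)
      invFun := fun u => (σ.symm (κ⁻¹ * u.1), s.symm u.2.1, σ.symm u.2.2)
      left_inv := by
        intro u
        refine Prod.ext ?_ (Prod.ext (s.symm_apply_apply _) (σ.symm_apply_apply _))
        change σ.symm (κ⁻¹ * (κ * σ u.1)) = u.1
        rw [inv_mul_cancel_left₀ hκ, σ.symm_apply_apply]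
      right_inv := by
        intro u
        refine Prod.ext ?_ (Prod.ext (s.apply_symm_apply _) (σ.apply_symm_apply _))
        change κ * σ (σ.symm (κ⁻¹ * u.1)) = u.1
        rw [σ.apply_symm_apply, mul_inv_cancel_left₀ hκ]
      map_add' := by
        intro u v
        refine Prod.ext ?_ (Prod.ext (map_add s _ _) (map_add σ _ _))
        change κ * σ (u.1 + v.1) = κ * σ u.1 + κ * σ v.1
        rw [map_add, mul_add] }
  have hg : ∀ u, g u = (κ * σ u.1, s u.2.1, σ u.2.2) := fun u => rfl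
  have hgS : SSim (hypo B) g σ κ := by
    refine ⟨fun a v => ?_, hκ, fun u v => ?_⟩
    · rw [hg, hg]
      refine Prod.ext ?_ (Prod.ext (hs a _) (map_mul σ _ _))
      change κ * σ (a * v.1) = σ a * (κ * σ v.1)
      rw [map_mul]
      ring
    · rw [hg, hg, hypo_apply, hypo_apply, hform, map_add, map_add, map_mul, map_mul]
      ring
  have hgs : ∀ v, hypo B v v = 0 → hypo B (g v) (g v) = 0 := by
    intro v hv
    rw [hgS.form, hv, map_zero, mul_zero]
  -- the action on the radicals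
  have stepq : ∀ (y : W) (v : K × W × K), hypo B v v = 0 → Im (hypo B) π β v (g v) →
      Im (hypo B) π β ((qX B X y : (K × W × K) ≃ₗ[K] (K × W × K)) v)
        ((qX B X (s y) : (K × W × K) ≃ₗ[K] (K × W × K)) (g v)) := by
    intro y v hv hv1 x
    rw [← RT_conj_iff' c _ (hgs v hv), ← RT_conj_iff' c _ hv, ← hmap, conj_iff_of_mem hv1]
  have stepg : ∀ (y : W) (v : K × W × K),
      g ((qX B X y : (K × W × K) ≃ₗ[K] (K × W × K)) v) =
        (qX B X (s y) : (K × W × K) ≃ₗ[K] (K × W × K)) (g v) := by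
    intro y v
    rw [qX_val c, qX_val c, qo_apply, qo_apply, hg, hg]
    refine Prod.ext ?_ (Prod.ext ?_ rfl)
    · change κ * σ (v.1 - B v.2.1 y - (2⁻¹ * B y y) * v.2.2) = κ * σ v.1 - B (s v.2.1) (s y) -
        (2⁻¹ * B (s y) (s y)) * σ v.2.2
      rw [hform, hform, map_sub, map_sub, map_mul, map_mul, map_inv₀]
      have : σ 2 = 2 := map_ofNat σ 2
      rw [this]
      ring
    · change s (v.2.1 + v.2.2 • y) = s v.2.1 + σ v.2.2 • s y
      rw [map_add, hs]
  have step2 : ∀ v : K × W × K, v ≠ 0 → hypo B v v = 0 → Im (hypo B) π β v (g v) := by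
    intro v hv0 hv
    have hsm : ∀ (k : K) (w : K × W × K), k ≠ 0 → hypo B w w = 0 → v = k • w →
        Im (hypo B) π β w (g w) → Im (hypo B) π β v (g v) := by
      intro k w hk hw hvw hi x
      rw [hvw, hgS.sl, RT_smul c ((map_ne_zero σ).mpr hk) (hgs w hw), RT_smul c hk hw]
      exact hi x
    by_cases hv2 : v.2.2 = 0
    · by_cases hv1 : v.2.1 = 0
      · -- the first point
        refine hsm v.1 (oo K W) ?_ (oo_sing B) ?_ ?_
        · intro h0
          exact hv0 (Prod.ext h0 (Prod.ext hv1 hv2))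
        · refine Prod.ext (mul_one _).symm (Prod.ext ?_ ?_)
          · rw [hv1]; exact (smul_zero _).symm
          · rw [hv2]; exact (mul_zero _).symm
        · have e3 : g (oo K W) = κ • oo K W := by
            rw [hg]
            refine Prod.ext ?_ (Prod.ext ?_ ?_)
            · change κ * σ 1 = κ * 1
              rw [map_one]
            · change s 0 = κ • (0 : W)
              rw [map_zero, smul_zero]
            · change σ 0 = κ * 0
              rw [map_zero, mul_zero]
          intro x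
          rw [e3, RT_smul c hκ (oo_sing B)]
          exact ht1 x
      · -- orthogonal to the first point
        obtain ⟨y, hy⟩ : ∃ y, y = v.2.1 := ⟨_, rfl⟩
        rw [← hy] at hv1
        have hys : B y y = 0 := by
          rw [hypo_apply, hv2, ← hy, mul_zero, zero_mul, add_zero, zero_add] at hv
          exact hv
        obtain ⟨z₀, hz₀⟩ := hB.exists_one hv1
        obtain ⟨z, hz⟩ : ∃ z, z = (-v.1) • z₀ := ⟨_, rfl⟩
        have hyz : B y z = -v.1 := by rw [hz, map_smul, hz₀, smul_eq_mul, mul_one]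
        have e1 : v = (qX B X z : (K × W × K) ≃ₗ[K] (K × W × K)) ((0 : K), y, (0 : K)) := by
          rw [qX_val c, qo_apply]
          refine Prod.ext ?_ (Prod.ext ?_ hv2)
          · change v.1 = 0 - B y z - (2⁻¹ * B z z) * 0
            rw [hyz]
            ring
          · change v.2.1 = y + (0 : K) • z
            rw [zero_smul, add_zero, hy]
        have e2 : g ((0 : K), y, (0 : K)) = ((0 : K), s y, (0 : K)) := by
          rw [hg]
          refine Prod.ext ?_ (Prod.ext rfl (map_zero σ))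
          change κ * σ 0 = 0
          rw [map_zero, mul_zero]
        have e3 : hypo B ((0 : K), y, (0 : K)) ((0 : K), y, (0 : K)) = 0 := by
          rw [hypo_apply]
          change (0 : K) * 0 + 0 * 0 + B y y = 0
          rw [hys]
          ring
        have e4 : Im (hypo B) π β ((0 : K), y, (0 : K)) (g ((0 : K), y, (0 : K))) := by
          rw [e2]
          exact hmid y hv1 hys
        rw [e1, stepg]
        exact stepq z _ e3 e4
    · -- not orthogonal to the first point
      obtain ⟨y, hy⟩ : ∃ y, y = v.2.2⁻¹ • v.2.1 := ⟨_, rfl⟩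
      have hgo : g (o' K W) = o' K W := by
        rw [hg]
        refine Prod.ext ?_ (Prod.ext (map_zero s) (map_one σ))
        change κ * σ 0 = 0
        rw [map_zero, mul_zero]
      refine hsm v.2.2 ((qX B X y : (K × W × K) ≃ₗ[K] (K × W × K)) (o' K W)) hv2
        (by rw [iso c, o'_sing]) ?_ ?_
      · rw [qX_o' c]
        refine Prod.ext ?_ (Prod.ext ?_ (mul_one _).symm)
        · change v.1 = v.2.2 * -(2⁻¹ * B y y)
          rw [hy, map_smul, map_smul, LinearMap.smul_apply, smul_eq_mul, smul_eq_mul]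
          rw [hypo_apply] at hv
          field_simp
          linear_combination hv
        · change v.2.1 = v.2.2 • y
          rw [hy, smul_smul, mul_inv_cancel₀ hv2, one_smul]
      · rw [stepg, hgo]
        have h3 := stepq y (o' K W) (o'_sing B) (by rw [hgo]; exact ht2)
        rw [hgo] at h3
        exact h3
  -- the action on the elements
  have step3 : IndZ π β g := by
    intro x z hz
    obtain ⟨y, hy⟩ := hgS.exists_conj (⟨x, c.cl.1 x.2⟩ : SpG (hypo B))
    have hy' : ∀ v, g ((x : (K × W × K) ≃ₗ[K] (K × W × K)) v) =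
      (y : (K × W × K) ≃ₗ[K] (K × W × K)) (g v) := hy
    obtain ⟨k, hk⟩ := scalar_of_points (z := (((y : (K × W × K) ≃ₗ[K] (K × W × K))⁻¹ *
        (z : (K × W × K) ≃ₗ[K] (K × W × K)) : (K × W × K) ≃ₗ[K] (K × W × K)) :
        (K × W × K) →ₗ[K] (K × W × K))) hV h2 (by omega) (fun w hw0 hw => by
      obtain ⟨v, rfl⟩ := g.surjective w
      have hv0 : v ≠ 0 := by
        rintro rfl
        rw [map_zero] at hw0
        exact hw0 rfl
      have hv : hypo B v v = 0 := by
        rw [hgS.form] at hw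
        exact (map_eq_zero σ).mp ((mul_eq_zero.mp hw).resolve_left hκ)
      have hxv0 : (x : (K × W × K) ≃ₗ[K] (K × W × K)) v ≠ 0 :=
        fun h0 => hv0 (LinearEquiv.map_eq_zero_iff _ |>.mp h0)
      have hxv : hypo B ((x : (K × W × K) ≃ₗ[K] (K × W × K)) v)
          ((x : (K × W × K) ≃ₗ[K] (K × W × K)) v) = 0 := by rw [iso c, hv]
      have hyg : hypo B ((y : (K × W × K) ≃ₗ[K] (K × W × K)) (g v))
          ((y : (K × W × K) ≃ₗ[K] (K × W × K)) (g v)) = 0 := by rw [mem_SpG.mp y.2, hw]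
      have hzg : hypo B ((z : (K × W × K) ≃ₗ[K] (K × W × K)) (g v))
          ((z : (K × W × K) ≃ₗ[K] (K × W × K)) (g v)) = 0 := by rw [iso c, hw]
      obtain ⟨k, hk⟩ := RT_eq c h (by omega) (u := (y : (K × W × K) ≃ₗ[K] (K × W × K)) (g v))
        (w := (z : (K × W × K) ≃ₗ[K] (K × W × K)) (g v))
        (fun h0 => hw0 (LinearEquiv.map_eq_zero_iff _ |>.mp h0))
        (fun h0 => hw0 (LinearEquiv.map_eq_zero_iff _ |>.mp h0)) hyg hzg (fun u hu => by
          rw [← hy'] at hu
          obtain ⟨u, rfl⟩ := β.surjective u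
          rw [step2 _ hxv0 hxv, ← RT_conj_iff' c x hv, ← step2 v hv0 hv, map_mul, map_mul,
            map_inv, hz, RT_conj_iff' c z hw] at hu
          exact hu)
      refine ⟨k, ?_⟩
      change (y : (K × W × K) ≃ₗ[K] (K × W × K)).symm
        ((z : (K × W × K) ≃ₗ[K] (K × W × K)) (g v)) = k • g v
      rw [hk, map_smul, LinearEquiv.symm_apply_apply])
    refine ⟨k, fun v => ?_⟩
    have h3 : (y : (K × W × K) ≃ₗ[K] (K × W × K)).symm
        ((z : (K × W × K) ≃ₗ[K] (K × W × K)) (g v)) = k • g v := hk (g v)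
    rw [LinearEquiv.symm_apply_eq, map_smul] at h3
    rw [h3, hy']
  -- back to `α`
  obtain ⟨z, rfl⟩ := h.surj t
  refine ⟨g.trans (z : (K × W × K) ≃ₗ[K] (K × W × K)).symm.toAddEquiv, σ, κ, ?_, ?_⟩
  · refine ⟨fun a v => ?_, hκ, fun u v => ?_⟩
    · change (z : (K × W × K) ≃ₗ[K] (K × W × K)).symm (g (a • v)) =
        σ a • (z : (K × W × K) ≃ₗ[K] (K × W × K)).symm (g v)
      rw [hgS.sl, map_smul]
    · change hypo B ((z : (K × W × K) ≃ₗ[K] (K × W × K)).symm (g u))
        ((z : (K × W × K) ≃ₗ[K] (K × W × K)).symm (g v)) = _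
      rw [← hgS.form, ← iso c z, LinearEquiv.apply_symm_apply, LinearEquiv.apply_symm_apply]
  · intro x y hxy
    obtain ⟨k, hk⟩ := step3 x (z * y * z⁻¹) (by
      rw [hβ, MulAut.mul_apply, hxy, MulAut.conj_apply, map_mul, map_mul, map_inv])
    refine ⟨k, fun v => ?_⟩
    have h3 : (z : (K × W × K) ≃ₗ[K] (K × W × K)) ((y : (K × W × K) ≃ₗ[K] (K × W × K))
      ((z : (K × W × K) ≃ₗ[K] (K × W × K)).symm (g v))) = k • g
        ((x : (K × W × K) ≃ₗ[K] (K × W × K)) v) := hk v
    change (y : (K × W × K) ≃ₗ[K] (K × W × K)) ((z : (K × W × K) ≃ₗ[K] (K × W × K)).symm (g v)) =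
      k • (z : (K × W × K) ≃ₗ[K] (K × W × K)).symm (g ((x : (K × W × K) ≃ₗ[K] (K × W × K)) v))
    rw [← map_smul, ← h3, LinearEquiv.symm_apply_apply]

end Main

end Vale.Agent.P180.R2.H589.O8
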